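import Vale.Agent.P043.Z4.Defs

/-!
P043 puzzle: the last non-zero base-8 digit, and what a pattern says on a class of indices modulo 8.
-/

namespace Vale.Agent.P043.Z4.Puzzle

theorem dig_of_res {z : ℤ} (h : (z : ZMod 8) ≠ 0) : dig z = z := by
  have : padicValInt 8 z = 0 :=
    padicValInt.eq_zero_of_not_dvd fun hd => h ((ZMod.intCast_zmod_eq_zero_iff_dvd _ _).2 hd)
  simp [dig, this]

theorem dig_zero : dig 0 = 0 := by simp [dig]

theorem dig_eight_mul (z : ℤ) : dig (8 * z) = dig z := by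
  rcases eq_or_ne z 0 with rfl | hz
  · simp
  · have : padicValInt 8 (8 * z) = padicValInt 8 z + 1 := by
      unfold padicValInt
      rw [Int.natAbs_mul, show Int.natAbs 8 = 8 from rfl,
        padicValNat_base_mul (by norm_num) (Int.natAbs_ne_zero.2 hz)]
    simp [dig, this, pow_succ', Int.mul_ediv_mul_of_pos]

theorem dig_ne_zero {z : ℤ} (hz : z ≠ 0) : dig z ≠ 0 := by
  induction hn : z.natAbs using Nat.strong_induction_on generalizing z with
  | _ n ih =>
    by_cases h : (z : ZMod 8) = 0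
    · obtain ⟨k, rfl⟩ := (ZMod.intCast_zmod_eq_zero_iff_dvd _ _).1 h
      rw [show (((8 : ℕ) : ℤ)) = 8 from rfl, dig_eight_mul]
      refine ih k.natAbs ?_ (by omega) rfl
      omega
    · rwa [dig_of_res h]

/-- The index `r + 8 m`. -/
def idx (r m : Fin 8) : Fin 64 := ⟨r.val + 8 * m.val, by omega⟩

theorem coe_idx (r m : Fin 8) : (((idx r m : Fin 64) : ℕ) : ℤ) = r.val + 8 * (m.val : ℤ) := by
  simp [idx]

theorem res_idx (r m : Fin 8) : ((((idx r m : Fin 64) : ℕ)) : ZMod 8) = (r.val : ZMod 8) := by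
  simp [idx, show (8 : ZMod 8) = 0 from rfl]

theorem exists_idx (n : Fin 64) : ∃ r m, idx r m = n :=
  ⟨⟨n.val % 8, by omega⟩, ⟨n.val / 8, by omega⟩, Fin.ext (by simp [idx, Nat.mod_add_div])⟩

/-- A pattern is given by an affine function that does not vanish identically mod 8. -/
theorem Pat.primitive {g : Fin 64 → ZMod 8} (h : Pat g) :
    (∀ n, g n ≠ 0) ∧ ∃ a b : ℤ, ((a : ZMod 8) ≠ 0 ∨ (b : ZMod 8) ≠ 0) ∧
      ∀ n : Fin 64, a * (n : ℕ) + b ≠ 0 → g n = dig (a * (n : ℕ) + b) := by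
  obtain ⟨h0, a, b, hne, hg⟩ := h
  refine ⟨h0, ?_⟩
  induction hk : a.natAbs + b.natAbs using Nat.strong_induction_on generalizing a b with
  | _ k ih =>
    by_cases hab : (a : ZMod 8) ≠ 0 ∨ (b : ZMod 8) ≠ 0
    · exact ⟨a, b, hab, hg⟩
    · push Not at hab
      obtain ⟨a', rfl⟩ := (ZMod.intCast_zmod_eq_zero_iff_dvd _ _).1 hab.1
      obtain ⟨b', rfl⟩ := (ZMod.intCast_zmod_eq_zero_iff_dvd _ _).1 hab.2
      refine ih (a'.natAbs + b'.natAbs) (by omega) a' b' (by omega) (fun n hn => ?_) rfl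
      have e : ((8 : ℕ) : ℤ) * a' * (n : ℕ) + ((8 : ℕ) : ℤ) * b' = 8 * (a' * (n : ℕ) + b') := by
        push_cast; ring
      rw [hg n (by rw [e]; omega), e, dig_eight_mul]

/-- An affine function with slope non-zero mod 8 shows two digits among eight consecutive arguments. -/
theorem not_const {a e : ℤ} {w : ZMod 8} (ha : (a : ZMod 8) ≠ 0) (hw : w ≠ 0)
    (h : ∀ m : Fin 8, a * (m : ℕ) + e ≠ 0 → dig (a * (m : ℕ) + e) = w) : False := by
  have res : ∀ m : Fin 8, (a : ZMod 8) * (m.val : ZMod 8) + e = 0 ∨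
      (a : ZMod 8) * (m.val : ZMod 8) + e = w := by
    intro m
    by_cases hm : (a : ZMod 8) * (m.val : ZMod 8) + e = 0
    · exact Or.inl hm
    · have hm' : ((a * (m : ℕ) + e : ℤ) : ZMod 8) ≠ 0 := by push_cast; exact hm
      have := h m fun hh => hm' (by rw [hh]; simp)
      rw [dig_of_res hm'] at this
      push_cast at this
      exact Or.inr this
  have key : ∀ A E W : ZMod 8, A ≠ 0 → W ≠ 0 →
      (E = 0 ∨ E = W) → (A + E = 0 ∨ A + E = W) → (A * 2 + E = 0 ∨ A * 2 + E = W) →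
      A = 4 ∧ W = 4 := by decide
  obtain ⟨hA, rfl⟩ := key a e w ha hw (by simpa using res 0) (by simpa using res 1)
    (by simpa using res 2)
  obtain ⟨q, hq⟩ : ((8 : ℕ) : ℤ) ∣ a - 4 := by
    rw [← ZMod.intCast_zmod_eq_zero_iff_dvd]; push_cast; rw [hA, sub_self]
  obtain ⟨m₀, hm₀, z, hz⟩ : ∃ m₀ : ℤ, (m₀ = 0 ∨ m₀ = 1) ∧ (8 : ℤ) ∣ a * m₀ + e := by
    have h0 := res 0
    simp only [Fin.val_zero, Nat.cast_zero, mul_zero, zero_add] at h0
    rcases h0 with h0 | h0
    · exact ⟨0, Or.inl rfl, by simpa using (ZMod.intCast_zmod_eq_zero_iff_dvd _ _).1 h0⟩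
    · refine ⟨1, Or.inr rfl, ?_⟩
      have : ((a * 1 + e : ℤ) : ZMod 8) = 0 := by push_cast; rw [hA, h0]; decide
      simpa using (ZMod.intCast_zmod_eq_zero_iff_dvd _ _).1 this
  -- the quotients at `m₀` and `m₀ + 2` differ by an odd number
  have par : ∀ (m : Fin 8) (x : ℤ), a * (m : ℕ) + e = 8 * x → x % 2 = 1 → False := by
    intro m x hx hodd
    have hx8 : (x : ZMod 8) ≠ 0 := fun hh => by
      obtain ⟨k, hk⟩ := (ZMod.intCast_zmod_eq_zero_iff_dvd _ _).1 hh
      push_cast at hk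
      omega
    have := h m (by omega)
    rw [hx, dig_eight_mul, dig_of_res hx8] at this
    have h4 : (((x - 4 : ℤ)) : ZMod 8) = 0 := by push_cast; rw [this, sub_self]
    obtain ⟨k, hk⟩ := (ZMod.intCast_zmod_eq_zero_iff_dvd _ _).1 h4
    push_cast at hk
    omega
  push_cast at hq
  rcases Int.emod_two_eq_zero_or_one z with hpar | hpar
  · rcases hm₀ with rfl | rfl
    · exact par 2 (z + (2 * q + 1)) (by show a * (2 : ℤ) + e = _; linarith) (by omega)
    · exact par 3 (z + (2 * q + 1)) (by show a * (3 : ℤ) + e = _; linarith) (by omega)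
  · rcases hm₀ with rfl | rfl
    · exact par 0 z (by simpa using hz) hpar
    · exact par 1 z (by simpa using hz) hpar

/-- Pinning: a constant class shows the residue of the affine function, which is not zero. -/
theorem pin {g : Fin 64 → ZMod 8} {a b : ℤ} (hab : (a : ZMod 8) ≠ 0 ∨ (b : ZMod 8) ≠ 0)
    (hg : ∀ n : Fin 64, a * (n : ℕ) + b ≠ 0 → g n = dig (a * (n : ℕ) + b))
    {r : Fin 8} {w : ZMod 8} (hw0 : w ≠ 0) (hw : ∀ m, g (idx r m) = w) :
    (a : ZMod 8) * (r.val : ZMod 8) + b = w := by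
  by_cases h0 : (a : ZMod 8) * (r.val : ZMod 8) + b = 0
  · exfalso
    have ha : (a : ZMod 8) ≠ 0 := by
      intro ha
      rw [ha, zero_mul, zero_add] at h0
      exact hab.elim (· ha) (· h0)
    obtain ⟨e, he⟩ : ((8 : ℕ) : ℤ) ∣ a * (r.val : ℕ) + b := by
      rw [← ZMod.intCast_zmod_eq_zero_iff_dvd]; push_cast; exact h0
    refine not_const (e := e) ha hw0 fun m hm => ?_
    have e1 : a * ((idx r m : Fin 64) : ℕ) + b = 8 * (a * (m : ℕ) + e) := by
      rw [coe_idx]; push_cast at he ⊢; linear_combination he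
    rw [← hw m, hg _ (by rw [e1]; omega), e1, dig_eight_mul]
  · have hr : ((a * ((idx r 0 : Fin 64) : ℕ) + b : ℤ) : ZMod 8) ≠ 0 := by
      push_cast; rwa [res_idx]
    rw [← hw 0, hg _ (fun hh => hr (by rw [hh]; simp)), dig_of_res hr]
    push_cast
    rw [res_idx]

/-- A class where the affine function vanishes mod 8 shows the digits of an affine function with the same slope. -/
theorem class_digits {g : Fin 64 → ZMod 8} {a b : ℤ}
    (hg : ∀ n : Fin 64, a * (n : ℕ) + b ≠ 0 → g n = dig (a * (n : ℕ) + b))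
    {r : Fin 8} (h0 : (a : ZMod 8) * (r.val : ZMod 8) + b = 0) :
    ∃ e : ℤ, ∀ m : Fin 8, a * (m : ℕ) + e ≠ 0 → g (idx r m) = dig (a * (m : ℕ) + e) := by
  obtain ⟨e, he⟩ : ((8 : ℕ) : ℤ) ∣ a * (r.val : ℕ) + b := by
    rw [← ZMod.intCast_zmod_eq_zero_iff_dvd]; push_cast; exact h0
  refine ⟨e, fun m hm => ?_⟩
  have e1 : a * ((idx r m : Fin 64) : ℕ) + b = 8 * (a * (m : ℕ) + e) := by
    rw [coe_idx]; push_cast at he ⊢; linear_combination he
  rw [hg _ (by rw [e1]; omega), e1, dig_eight_mul]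

end Vale.Agent.P043.Z4.Puzzle
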