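import Vale.Agent.P043.Z4.Puzzle.Dig

/-!
P043 puzzle: the intended colouring.
-/

namespace Vale.Agent.P043.Z4

open Puzzle

theorem colouringExists : ColouringExists := by
  refine ⟨fun x => (x.1 : ZMod 8), fun x => ((x.1 + x.2 : ℤ) : ZMod 8), fun x => (x.2 : ZMod 8),
    fun n x => if x.1 + x.2 * (n : ℕ) = 0 then 1 else dig (x.1 + x.2 * (n : ℕ)), ?_⟩
  constructor
  · intro x; simp
  · intro x
    simp only [Prod.fst_add, Prod.snd_add]
    push_cast
    ring
  · intro x; simp
  · intro n x
    have : (x + (((n : ℕ) : ℤ), (-1 : ℤ))).1 + (x + (((n : ℕ) : ℤ), (-1 : ℤ))).2 * (n : ℕ) =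
        x.1 + x.2 * (n : ℕ) := by simp only [Prod.fst_add, Prod.snd_add]; ring
    simp only [this]
  · intro x
    refine ⟨by simp, rfl, fun n hn => ?_, fun n => ?_, ?_⟩
    · have hr : (((x.1 + x.2 * (n : ℕ) : ℤ)) : ZMod 8) ≠ 0 := by
        push_cast; rwa [mul_comm]
      beta_reduce
      rw [if_neg (fun hh => hr (by rw [hh]; simp)), dig_of_res hr]
      push_cast
      ring
    · beta_reduce
      split_ifs with h
      · decide
      · exact dig_ne_zero h
    · by_cases h : x.2 = 0 ∧ x.1 = 0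
      · refine ⟨0, 1, Or.inr one_ne_zero, fun n _ => ?_⟩
        have e : dig 1 = (1 : ZMod 8) := by rw [dig_of_res (by decide)]; simp
        simp [h.1, h.2, e]
      · refine ⟨x.2, x.1, by tauto, fun n hn => ?_⟩
        beta_reduce
        rw [if_neg (by rwa [add_comm]), add_comm]

end Vale.Agent.P043.Z4
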