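import Vale.Agent.P043.Z4.Puzzle.Plane

/-!
P043 puzzle: colours along lines obeying the site rule, with a marker flipping every two steps, have no period.
-/

namespace Vale.Agent.P043.Z4

namespace Puzzle

/-- Every sloped line through the rows shows a pattern. -/
def Pats (F : Fin 64 → ℤ → ZMod 8) : Prop :=
  ∀ i j : ℤ, Pat fun n => F n (i + j * (n : ℕ))

/-- The rows show residues of translates, moving affinely with the index. -/
def Fits (F : Fin 64 → ℤ → ZMod 8) : Prop :=
  ∃ lam : ZMod 8, ∃ c₀ c₁ : ℤ, lam * lam = 1 ∧ ∀ (n : Fin 64) (l : ℤ),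
    ((l - c₀ - c₁ * (n : ℕ) : ℤ) : ZMod 8) ≠ 0 →
      F n l = lam * ((l - c₀ - c₁ * (n : ℕ) : ℤ) : ZMod 8)

theorem succ_val (r : Fin 8) : (((r + 1 : Fin 8).val : ℕ) : ZMod 8) = r.val + 1 := by
  revert r; decide

theorem add_two_val (r : Fin 8) : (((r + 2 : Fin 8).val : ℕ) : ZMod 8) = r.val + 2 := by
  revert r; decide

/-- One step of the descent. -/
theorem step {F : Fin 64 → ℤ → ZMod 8} (hP : Pats F) (hF : Fits F) :
    ∃ c₀ c₁ : ℤ, Pats (fun n K => F n (c₀ + c₁ * (n : ℕ) + 8 * K)) ∧
      Fits (fun n K => F n (c₀ + c₁ * (n : ℕ) + 8 * K)) := by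
  obtain ⟨lam, c₀, c₁, hl, hF⟩ := hF
  set H : Fin 64 → ℤ → ZMod 8 := fun n K => F n (c₀ + c₁ * (n : ℕ) + 8 * K) with hH
  have hPH : Pats H := by
    intro i j
    convert hP (c₀ + 8 * i) (c₁ + 8 * j) using 2 with n
    simp only [hH]
    congr 1
    ring
  refine ⟨c₀, c₁, hPH, ?_⟩
  have hH0 : ∀ n K, H n K ≠ 0 := by
    intro n K
    simpa using (hP (c₀ + c₁ * (n : ℕ) + 8 * K) 0).1 n
  have units : ∀ (w : ZMod 8), w ≠ 0 → lam * w ≠ 0 := by
    intro w hw hh
    exact hw (by linear_combination lam * hh - w * hl)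
  have digits : ∀ (r₀ : Fin 8) (t : ℤ), (t : ZMod 8) ≠ 0 → (t : ZMod 8) * 2 ≠ 0 →
      Digits (fun m l => H (idx r₀ m) l) lam t := by
    intro r₀ t ht1 ht2 K
    set i := c₀ - t * (r₀.val : ℤ) + 8 * K with hi
    obtain ⟨hg0, a, b, hab, hg⟩ := Pat.primitive (hP i (c₁ + t))
    have hr : ∀ (r m : Fin 8), ((i + (c₁ + t) * ((idx r m : Fin 64) : ℕ) - c₀ -
        c₁ * ((idx r m : Fin 64) : ℕ) : ℤ) : ZMod 8) = t * ((r.val : ZMod 8) - r₀.val) := by
      intro r m
      rw [hi]
      push_cast
      rw [res_idx, show (8 : ZMod 8) = 0 from rfl]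
      ring
    have pinned : ∀ r : Fin 8, (t : ZMod 8) * ((r.val : ZMod 8) - r₀.val) ≠ 0 →
        (a : ZMod 8) * (r.val : ZMod 8) + b = lam * (t * ((r.val : ZMod 8) - r₀.val)) := by
      intro r hne
      refine pin hab hg (units _ hne) fun m => ?_
      rw [hF _ _ (by rw [hr]; exact hne), hr]
    have h1 := pinned (r₀ + 1) (by rw [succ_val]; simpa using ht1)
    have h2 := pinned (r₀ + 2) (by rw [add_two_val]; simpa using ht2)
    rw [succ_val] at h1
    rw [add_two_val] at h2
    have ha : (a : ZMod 8) = lam * t := by linear_combination h2 - h1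
    obtain ⟨e, he⟩ := class_digits hg (r := r₀)
      (by linear_combination h1 - ha)
    refine ⟨a, e, ha, fun m hm => ?_⟩
    rw [← he m hm]
    simp only [hH]
    congr 1
    rw [hi, coe_idx]
    ring
  have rows : ∀ r : Fin 8, ∃ D : ZMod 8, ∀ (m : Fin 8) (l : ℤ), (l : ZMod 8) ≠ D →
      H (idx r m) l = lam * ((l : ZMod 8) - D) := by
    intro r
    refine one_label hl (fun m l => hH0 _ l) (fun t ht => digits r t ?_ ?_) (digits r 2 (by decide) (by decide))
    · intro e
      have := val_odd ht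
      rw [e] at this
      simp at this
    · intro e
      have := val_odd ht
      revert this e
      generalize (t : ZMod 8) = z
      revert z
      decide
  choose D hD using rows
  set s : ZMod 8 := D 1 - D 0 with hs
  obtain ⟨y, hy⟩ : ∃ y : ZMod 8, ∀ r : Fin 8, y + s * (r.val : ZMod 8) - D r ≠ 0 := by
    have hns : ¬ Function.Surjective fun r : Fin 8 => D r - s * (r.val : ZMod 8) := fun hsur => by
      have hinj := ((Fintype.bijective_iff_surjective_and_card _).2 ⟨hsur, by simp⟩).1
      exact absurd (@hinj 0 1 (by simp [hs])) (by decide)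
    simp only [Function.Surjective, not_forall, not_exists] at hns
    obtain ⟨y, hy⟩ := hns
    exact ⟨y, fun r e => hy r (by linear_combination -e)⟩
  obtain ⟨hg0, a, b, hab, hg⟩ := Pat.primitive (hPH (y.val : ℤ) (s.val : ℤ))
  have aff : ∀ r : Fin 8, lam * (y + s * (r.val : ZMod 8) - D r) =
      (a : ZMod 8) * (r.val : ZMod 8) + b := by
    intro r
    refine (pin hab hg (units _ (hy r)) fun m => ?_).symm
    have e : (((y.val : ℤ) + (s.val : ℤ) * ((idx r m : Fin 64) : ℕ) : ℤ) : ZMod 8) =
        y + s * (r.val : ZMod 8) := by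
      push_cast
      rw [res_idx, ZMod.natCast_zmod_val, ZMod.natCast_zmod_val]
    rw [hD r m _ (by rw [e]; exact fun hh => hy r (by rw [hh, sub_self])), e]
  have affD : ∀ r : Fin 8, D r = D 0 + s * (r.val : ZMod 8) := by
    intro r
    have e0 := aff 0
    have e1 := aff 1
    have er := aff r
    simp only [Fin.val_zero, Fin.val_one, Nat.cast_zero, Nat.cast_one] at e0 e1
    have ha : (a : ZMod 8) = 0 := by linear_combination e0 - e1 - lam * hs
    linear_combination lam * (e0 - er) - lam * (r.val : ZMod 8) * ha +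
      (D 0 + s * (r.val : ZMod 8) - D r) * hl
  refine ⟨lam, (D 0).val, s.val, hl, fun n l hne => ?_⟩
  obtain ⟨r, m, rfl⟩ := exists_idx n
  have e : (((l - ((D 0).val : ℤ) - (s.val : ℤ) * ((idx r m : Fin 64) : ℕ) : ℤ)) : ZMod 8) =
      (l : ZMod 8) - D r := by
    push_cast
    rw [res_idx, ZMod.natCast_zmod_val, ZMod.natCast_zmod_val, affD r]
    ring
  rw [e] at hne ⊢
  exact hD r m l (sub_ne_zero.1 hne)

/-- The first row has no period. -/
theorem no_period (P : ℕ) : ∀ F, Pats F → Fits F → 0 < P → ¬∀ n l, F n (l + P) = F n l := by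
  induction P using Nat.strong_induction_on with
  | _ P ih =>
    intro F hP hF hP0 hper
    by_cases h8 : 8 ∣ P
    · obtain ⟨Q, rfl⟩ := h8
      obtain ⟨c₀, c₁, hP', hF'⟩ := step hP hF
      refine ih Q (by omega) _ hP' hF' (by omega) fun n l => ?_
      rw [← hper n (c₀ + c₁ * (n : ℕ) + 8 * l)]
      congr 1
      push_cast
      ring
    · obtain ⟨lam, c₀, c₁, hl, hF⟩ := hF
      have hPz : (P : ZMod 8) ≠ 0 := fun e => h8 ((ZMod.natCast_eq_zero_iff _ _).1 e)
      obtain ⟨z, hz, hz'⟩ : ∃ z : ZMod 8, z ≠ 0 ∧ z + (P : ZMod 8) ≠ 0 := by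
        have key : ∀ p : ZMod 8, ∃ z : ZMod 8, z ≠ 0 ∧ z + p ≠ 0 := by decide
        exact key _
      have e1 : (((c₀ + z.val - c₀ - c₁ * ((0 : Fin 64) : ℕ) : ℤ)) : ZMod 8) = z := by
        simp
      have e2 : (((c₀ + z.val + P - c₀ - c₁ * ((0 : Fin 64) : ℕ) : ℤ)) : ZMod 8) = z + P := by
        simp; ring
      have h1 := hF 0 (c₀ + z.val) (by rw [e1]; exact hz)
      have h2 := hF 0 (c₀ + z.val + P) (by rw [e2]; exact hz')
      rw [e1] at h1
      rw [e2, hper, h1] at h2
      exact hPz (by linear_combination -lam * h2 - (P : ZMod 8) * hl)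

/-- A function invariant under a shift is invariant under its multiples. -/
theorem shift_zsmul {α : Type*} {φ : ℤ × ℤ → α} {w : ℤ × ℤ} (h : ∀ x, φ (x + w) = φ x) (j : ℤ)
    (x : ℤ × ℤ) : φ (x + j • w) = φ x := by
  induction j using Int.induction_on generalizing x with
  | zero => simp
  | succ i ih => rw [add_smul, one_smul, ← add_assoc, h, ih]
  | pred i ih =>
    rw [sub_smul, one_smul]
    have := h (x + ((-i : ℤ) • w - w))
    rw [show x + ((-i : ℤ) • w - w) + w = x + (-i : ℤ) • w by abel, ih] at this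
    exact this.symm

end Puzzle

open Puzzle

theorem noPeriodicColouring : NoPeriodicColouring := by
  rintro m u v a f hc hflip ⟨P, hP, hper⟩
  -- every colour as a function of one integer
  set U : ℤ → ZMod 8 := fun i => u (i, 0) with hUdef
  set V : ℤ → ZMod 8 := fun l => v (l, 0) with hVdef
  set A : ℤ → ZMod 8 := fun j => a (0, j) with hAdef
  set F : Fin 64 → ℤ → ZMod 8 := fun n l => f n (l, 0) with hFdef
  have hU : ∀ i j, u (i, j) = U i := fun i j => by
    simpa using shift_zsmul hc.inv_u j (i, 0)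
  have hV : ∀ i j, v (i, j) = V (i + j) := fun i j => by
    simpa [hVdef] using (shift_zsmul hc.inv_v j (i, j)).symm
  have hA : ∀ i j, a (i, j) = A j := fun i j => by
    simpa [hAdef] using shift_zsmul hc.inv_a i (0, j)
  have hf : ∀ (n : Fin 64) i j, f n (i, j) = F n (i + j * (n : ℕ)) := fun n i j => by
    simpa [hFdef] using (shift_zsmul (hc.inv_f n) j (i, j)).symm
  have add : ∀ i j : ℤ, V (i + j) = U i + A j := fun i j => by
    rw [← hV, (hc.allowed (i, j)).1, hU, hA]
  set lam := A 1 - A 0 with hlam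
  have hA1 : ∀ j : ℤ, A (j + 1) = A j + lam := fun j => by
    have p := add 0 (j + 1)
    have q := add 1 j
    have r := add 1 0
    have s := add 0 1
    rw [zero_add] at p
    rw [add_comm 1 j] at q
    rw [add_zero] at r
    rw [zero_add] at s
    rw [hlam]
    linear_combination q - p + s - r
  have hAlin : ∀ j : ℤ, A j = A 0 + lam * j := by
    intro j
    induction j using Int.induction_on with
    | zero => simp
    | succ i ih => rw [hA1, ih]; push_cast; ring
    | pred i ih =>
      have := hA1 (-(i : ℤ) - 1)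
      rw [sub_add_cancel, ih] at this
      push_cast at this ⊢
      linear_combination -this
  have hUlin : ∀ i : ℤ, U i = U 0 + lam * i := fun i => by
    have p := add i 0
    have q := add 0 i
    rw [add_zero] at p
    rw [zero_add, hAlin i] at q
    linear_combination q - p
  have hl : lam * lam = 1 := by
    have p := hflip (0, 2)
    rw [(hc.allowed (0, 2)).2.1, (hc.allowed ((0, 2) - (0, 2))).2.1] at p
    simp only [sub_self] at p
    rw [show (0 : ℤ × ℤ) = (0, 0) from rfl, hA, hA, hAlin 2] at p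
    revert p
    have key : ∀ z w : ZMod 8, bit1 (z + w * 2) ≠ bit1 z → w * w = 1 := by decide
    simpa using key (A 0) lam
  refine no_period P F (fun i j => ?_) ⟨lam, (-lam * U 0).val, (-lam * A 0).val, hl, fun n l hne => ?_⟩
    hP (fun n l => ?_)
  · obtain ⟨-, -, -, hp⟩ := hc.allowed (i, j)
    simpa only [hf] using hp
  · obtain ⟨-, -, hd, -⟩ := hc.allowed (l, 0)
    have e : u (l, 0) + (n : ℕ) * a (l, 0) =
        lam * ((l - ((-lam * U 0).val : ℤ) - ((-lam * A 0).val : ℤ) * (n : ℕ) : ℤ) : ZMod 8) := by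
      rw [hU, hA, hUlin]
      push_cast
      rw [ZMod.natCast_zmod_val, ZMod.natCast_zmod_val]
      linear_combination (-(U 0) - (n.val : ZMod 8) * A 0) * hl
    rw [← e]
    refine hd n ?_
    rw [e]
    intro hh
    exact hne (by linear_combination lam * hh -
      ((l - ((-lam * U 0).val : ℤ) - ((-lam * A 0).val : ℤ) * (n : ℕ) : ℤ) : ZMod 8) * hl)
  · simpa [hFdef] using hper n (l, 0)

end Vale.Agent.P043.Z4
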