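import Vale.Agent.P043.Z4.Puzzle.Dig

/-!
P043 puzzle: eight sequences in which every line of odd slope or slope 2 shows the digits of an affine function
all show the residues of one translate.
-/

namespace Vale.Agent.P043.Z4.Puzzle

/-- The lines of slope `t` of `h` show the digits of affine functions of slope `lam * t` (mod 8). -/
def Digits (h : Fin 8 → ℤ → ZMod 8) (lam : ZMod 8) (t : ℤ) : Prop :=
  ∀ K : ℤ, ∃ a e : ℤ, (a : ZMod 8) = lam * t ∧
    ∀ m : Fin 8, a * (m : ℕ) + e ≠ 0 → h m (K + t * (m : ℕ)) = dig (a * (m : ℕ) + e)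

/-- `C` is a label of the line of slope `t` at `K`. -/
def Label (h : Fin 8 → ℤ → ZMod 8) (lam : ZMod 8) (t K : ℤ) (C : ZMod 8) : Prop :=
  ∀ m : Fin 8, ((K + t * (m : ℕ) : ℤ) : ZMod 8) ≠ C →
    h m (K + t * (m : ℕ)) = lam * (((K + t * (m : ℕ) : ℤ) : ZMod 8) - C)

variable {h : Fin 8 → ℤ → ZMod 8} {lam : ZMod 8}

theorem label_of_digits (hl : lam * lam = 1) {t : ℤ} (hd : Digits h lam t) (K : ℤ) :
    ∃ C, Label h lam t K C := by
  obtain ⟨a, e, ha, hm⟩ := hd K
  refine ⟨K - lam * e, fun m hne => ?_⟩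
  have hres : ((a * (m : ℕ) + e : ℤ) : ZMod 8) =
      lam * (((K + t * (m : ℕ) : ℤ) : ZMod 8) - (K - lam * e)) := by
    push_cast
    linear_combination (m.val : ZMod 8) * ha - (e : ZMod 8) * hl
  have hne' : ((a * (m : ℕ) + e : ℤ) : ZMod 8) ≠ 0 := by
    rw [hres]
    intro hh
    refine hne (sub_eq_zero.1 ?_)
    linear_combination lam * hh - (((K + t * (m : ℕ) : ℤ) : ZMod 8) - (K - lam * e)) * hl
  rw [hm m (fun hh => hne' (by rw [hh]; simp)), dig_of_res hne', hres]

theorem avoid : ∀ t t' mp δ : ZMod 8, t.val % 2 = 1 → t'.val % 2 = 1 → ∃ m : Fin 7,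
    t * ((m.val : ZMod 8) - mp) ≠ 0 ∧ t * ((m.val : ZMod 8) - mp) ≠ δ ∧
    t' * ((m.val : ZMod 8) + 1 - mp) ≠ 0 ∧ t' * ((m.val : ZMod 8) + 1 - mp) ≠ δ := by
  decide +kernel

theorem val_odd {t : ℤ} (ht : Odd t) : (t : ZMod 8).val % 2 = 1 := by
  obtain ⟨k, rfl⟩ := ht
  have key : ∀ z : ZMod 8, (2 * z + 1).val % 2 = 1 := by decide
  have := key (k : ZMod 8)
  push_cast
  exact this

/-- The labels of the odd lines through one point agree. -/
theorem label_unique (hl : lam * lam = 1) (h0 : ∀ m l, h m l ≠ 0)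
    (hd : ∀ t, Odd t → Digits h lam t) {t t' K K' : ℤ} (ht : Odd t) (ht' : Odd t')
    {m : Fin 8} (hP : K + t * (m : ℕ) = K' + t' * (m : ℕ)) {C C' : ZMod 8}
    (hC : Label h lam t K C) (hC' : Label h lam t' K' C') : C = C' := by
  -- inverting a label
  have inv : ∀ {u z D : ZMod 8}, u = lam * (z - D) → D = z - lam * u := by
    intro u z D e
    linear_combination lam * e + (z - D) * hl
  have core : ∀ {t t' K K' : ℤ}, Odd t → Odd t' → K + t * (m : ℕ) = K' + t' * (m : ℕ) →
      ∀ {C C' : ZMod 8}, Label h lam t K C → Label h lam t' K' C' →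
      C' = ((K + t * (m : ℕ) : ℤ) : ZMod 8) → C = C' := by
    intro t t' K K' ht ht' hP C C' hC hC' hr
    by_contra hne
    obtain ⟨j, hj1, hj2, hj3, hj4⟩ :=
      avoid (t : ZMod 8) (t' : ZMod 8) (m.val : ZMod 8) (C - C') (val_odd ht) (val_odd ht')
    let mA : Fin 8 := ⟨j.val, by omega⟩
    let mB : Fin 8 := ⟨j.val + 1, by omega⟩
    set lA := K + t * (mA : ℕ) with hlA
    set lB := K' + t' * (mB : ℕ) with hlB
    have hP' : ((K + t * (m : ℕ) : ℤ) : ZMod 8) = ((K' + t' * (m : ℕ) : ℤ) : ZMod 8) := by rw [hP]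
    have eA : (lA : ZMod 8) - C' = t * ((j.val : ZMod 8) - m.val) := by
      rw [hr, hlA]; push_cast; simp [mA]; ring
    have eB : (lB : ZMod 8) - C' = t' * ((j.val : ZMod 8) + 1 - m.val) := by
      rw [hr, hP', hlB]; push_cast; simp [mB]; ring
    have hA1 : (lA : ZMod 8) ≠ C' := fun e => hj1 (by rw [← eA, e, sub_self])
    have hA2 : (lA : ZMod 8) ≠ C := fun e => hj2 (by rw [← eA, e])
    have hB1 : (lB : ZMod 8) ≠ C' := fun e => hj3 (by rw [← eB, e, sub_self])
    have hB2 : (lB : ZMod 8) ≠ C := fun e => hj4 (by rw [← eB, e])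
    have hu : Odd (lB - lA) := by
      obtain ⟨a, rfl⟩ := ht
      obtain ⟨b, rfl⟩ := ht'
      refine ⟨b * (j.val + 1 - m.val) - a * (j.val - m.val), ?_⟩
      rw [hlA, hlB]
      simp [mA, mB]
      linear_combination -hP
    obtain ⟨D, hD⟩ := label_of_digits hl (hd _ hu) (lA - (lB - lA) * (mA : ℕ))
    have hAB : (lA : ZMod 8) ≠ lB := by
      intro e
      have := val_odd hu
      rw [show ((lB - lA : ℤ) : ZMod 8) = 0 by push_cast; rw [e, sub_self]] at this
      simp at this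
    have pA : lA - (lB - lA) * (mA : ℕ) + (lB - lA) * (mA : ℕ) = lA := by ring
    have pB : lA - (lB - lA) * (mA : ℕ) + (lB - lA) * (mB : ℕ) = lB := by simp [mA, mB]; ring
    have dA : D = C ∨ D = lA := by
      by_cases e : (lA : ZMod 8) = D
      · exact Or.inr e.symm
      · have := hD mA (by rw [pA]; exact e)
        rw [pA] at this
        exact Or.inl ((inv this).trans (inv (hC mA hA2)).symm)
    have dB : D = C' ∨ D = lB := by
      by_cases e : (lB : ZMod 8) = D
      · exact Or.inr e.symm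
      · have := hD mB (by rw [pB]; exact e)
        rw [pB] at this
        exact Or.inl ((inv this).trans (inv (hC' mB hB1)).symm)
    rcases dA with rfl | rfl <;> rcases dB with e | e
    · exact hne e
    · exact hB2 e.symm
    · exact hA1 e
    · exact hAB e
  by_cases e : C' = ((K + t * (m : ℕ) : ℤ) : ZMod 8)
  · exact core ht ht' hP hC hC' e
  by_cases e' : C = ((K + t * (m : ℕ) : ℤ) : ZMod 8)
  · exact (core ht' ht hP.symm hC' hC (by rw [← hP]; exact e')).symm
  · have h1 := inv (hC m (Ne.symm e'))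
    have h2 := inv (hC' m (by rw [← hP]; exact Ne.symm e))
    rw [← hP] at h2
    exact h1.trans h2.symm

/-- All points show one translate. -/
theorem one_label (hl : lam * lam = 1) (h0 : ∀ m l, h m l ≠ 0)
    (hd : ∀ t, Odd t → Digits h lam t) (hd2 : Digits h lam 2) :
    ∃ D : ZMod 8, ∀ (m : Fin 8) (l : ℤ), (l : ZMod 8) ≠ D → h m l = lam * ((l : ZMod 8) - D) := by
  choose E hE using fun K => label_of_digits hl (hd 1 odd_one) K
  choose E' hE' using fun K => label_of_digits hl (hd (-1) (by decide)) K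
  have point : ∀ (m : Fin 8) (l : ℤ), (l : ZMod 8) ≠ E (l - (m : ℕ)) →
      h m l = lam * ((l : ZMod 8) - E (l - (m : ℕ))) := by
    intro m l hne
    have := hE (l - (m : ℕ)) m
    rw [one_mul, sub_add_cancel] at this
    exact this hne
  have two : ∀ K, E (K + 2) = E K := by
    intro K
    have a := label_unique hl h0 hd (t := 1) (t' := -1) odd_one (by decide) (m := 0)
      (by simp) (hE (K + 2)) (hE' (K + 2))
    have b := label_unique hl h0 hd (t := 1) (t' := -1) odd_one (by decide) (m := 1)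
      (by simp; ring) (hE K) (hE' (K + 2))
    rw [a, b]
  have par : ∀ K : ℤ, E K = E (K % 2) := by
    have step : ∀ (q : ℕ) (K : ℤ), E (K + 2 * q) = E K := by
      intro q
      induction q with
      | zero => simp
      | succ q ih =>
        intro K
        rw [← ih K, ← two (K + 2 * q)]
        congr 1
        push_cast
        ring
    intro K
    rcases Int.eq_nat_or_neg (K / 2) with ⟨q, hq | hq⟩
    · rw [← step q (K % 2)]; congr 1; omega
    · rw [← step q K]; congr 1; omega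
  suffices hjoin : E 0 = E 1 by
    refine ⟨E 0, fun m l hne => ?_⟩
    have : E (l - (m : ℕ)) = E 0 := by
      rw [par]
      rcases Int.emod_two_eq_zero_or_one (l - (m : ℕ)) with e | e <;> rw [e]
      exact hjoin.symm
    have hp := point m l (by rw [this]; exact hne)
    rwa [this] at hp
  by_contra hne
  -- an even start off the class of `E 0` modulo 4
  obtain ⟨K, hK, hK4⟩ : ∃ K : ℤ, K % 2 = 0 ∧ ((K : ZMod 8) - E 0).val % 4 ≠ 0 := by
    by_cases e : ((0 : ZMod 8) - E 0).val % 4 = 0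
    · refine ⟨2, rfl, ?_⟩
      have key : ∀ z : ZMod 8, (0 - z).val % 4 = 0 → (2 - z).val % 4 ≠ 0 := by decide
      simpa using key _ e
    · exact ⟨0, rfl, by simpa using e⟩
  obtain ⟨a, e, ha, hm⟩ := hd2 K
  obtain ⟨C, hC, hres⟩ : ∃ C, Label h lam 2 K C ∧ ∀ m : Fin 8,
      ((a * (m : ℕ) + e : ℤ) : ZMod 8) = lam * (((K + 2 * (m : ℕ) : ℤ) : ZMod 8) - C) := by
    have hres : ∀ m : Fin 8, ((a * (m : ℕ) + e : ℤ) : ZMod 8) =
        lam * (((K + 2 * (m : ℕ) : ℤ) : ZMod 8) - ((K : ZMod 8) - lam * e)) := by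
      intro m
      push_cast at ha ⊢
      linear_combination (m.val : ZMod 8) * ha - (e : ZMod 8) * hl
    refine ⟨(K : ZMod 8) - lam * e, fun m hne' => ?_, hres⟩
    have h8 : ((a * (m : ℕ) + e : ℤ) : ZMod 8) ≠ 0 := fun hh => hne' (sub_eq_zero.1 (by
      linear_combination lam * ((hres m).symm.trans hh) -
        (((K + 2 * (m : ℕ) : ℤ) : ZMod 8) - ((K : ZMod 8) - lam * e)) * hl))
    rw [hm m (fun hh => h8 (by rw [hh]; simp)), dig_of_res h8, hres m]
  -- the points at even steps carry `E 0`, those at odd steps `E 1`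
  have pts : ∀ m : Fin 8, (((K + 2 * (m : ℕ) : ℤ)) : ZMod 8) ≠ E ((m.val : ℤ) % 2) →
      h m (K + 2 * (m : ℕ)) = lam * ((((K + 2 * (m : ℕ) : ℤ)) : ZMod 8) - E ((m.val : ℤ) % 2)) := by
    intro m hne'
    have e' : E (K + 2 * (m : ℕ) - (m : ℕ)) = E ((m.val : ℤ) % 2) := by
      rw [par]; congr 1; omega
    have := point m (K + 2 * (m : ℕ)) (by rw [e']; exact hne')
    rwa [e'] at this
  have cancel : ∀ z D D' : ZMod 8, lam * (z - D) = lam * (z - D') → D = D' := by
    intro z D D' e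
    linear_combination -lam * e - (D - D') * hl
  have hCp : C = E 0 := by
    have key : ∀ k p : ZMod 8, (k - p).val % 4 ≠ 0 → k ≠ p ∧ k + 4 ≠ p := by decide
    obtain ⟨k0, k4⟩ := key _ _ hK4
    have p0 := pts 0 (by simpa using k0)
    have p2 := pts 2 (by push_cast; exact k4)
    by_cases c0 : ((K : ℤ) : ZMod 8) = C
    · have := hC 2 (by
        push_cast
        intro e
        have key : ∀ z : ZMod 8, z + 4 ≠ z := by decide
        exact key C (by rw [c0] at e; exact e))
      exact cancel _ _ _ (this.symm.trans p2)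
    · have := hC 0 (by simpa using c0)
      exact cancel _ _ _ (this.symm.trans p0)
  subst hCp
  -- an odd step shows both labels unless its residue is one of them
  have one_bad : ∀ m : Fin 8, (m.val : ℤ) % 2 = 1 →
      ((K + 2 * (m : ℕ) : ℤ) : ZMod 8) = E 0 ∨ ((K + 2 * (m : ℕ) : ℤ) : ZMod 8) = E 1 := by
    intro m hodd
    by_contra hh
    push Not at hh
    have := pts m (by rw [hodd]; exact hh.2)
    rw [hodd] at this
    exact hne (cancel _ _ _ ((hC m hh.1).symm.trans this))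
  have v4 : ∀ m : Fin 8, (m.val : ℤ) % 2 = 1 → ((K + 2 * (m : ℕ) : ℤ) : ZMod 8) = E 0 →
      E 1 = E 0 + 4 → ∀ x : ℤ, a * (m : ℕ) + e = 8 * x → x % 2 = 1 → False := by
    intro m hodd hres h1 x hx hx1
    have hx8 : (x : ZMod 8) ≠ 0 := fun hh => by
      obtain ⟨k, hk⟩ := (ZMod.intCast_zmod_eq_zero_iff_dvd _ _).1 hh
      push_cast at hk
      omega
    have hp := pts m (by
      rw [hodd, hres, h1]
      have key : ∀ z : ZMod 8, z ≠ z + 4 := by decide
      exact key _)
    rw [hodd, hres, h1, hm m (by omega), hx, dig_eight_mul, dig_of_res hx8] at hp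
    have key : ∀ l z : ZMod 8, l * l = 1 → l * (z - (z + 4)) = 4 := by decide
    rw [key _ _ hl] at hp
    have h4 : (((x - 4 : ℤ)) : ZMod 8) = 0 := by push_cast; rw [hp, sub_self]
    obtain ⟨k, hk⟩ := (ZMod.intCast_zmod_eq_zero_iff_dvd _ _).1 h4
    push_cast at hk
    omega
  obtain ⟨q, hq⟩ : ((8 : ℕ) : ℤ) ∣ a * 2 - 4 := by
    rw [← ZMod.intCast_zmod_eq_zero_iff_dvd]
    push_cast
    rw [ha]
    have key : ∀ l : ZMod 8, l * l = 1 → l * 2 * 2 - 4 = 0 := by decide
    simpa using key _ hl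
  push_cast at hq
  -- the two residues `K + 2`, `K + 6` are the two labels
  have key : ∀ k p q : ZMod 8, (k + 2 = p ∨ k + 2 = q) → (k + 6 = p ∨ k + 6 = q) → p ≠ q →
      (k + 2 = p ∧ k + 10 = p ∧ q = p + 4) ∨ (k + 6 = p ∧ k + 14 = p ∧ q = p + 4) := by decide
  have r1 := one_bad 1 rfl
  have r3 := one_bad 3 rfl
  push_cast at r1 r3
  -- the deeper digits differ by an odd amount
  have finish : ∀ m m' : Fin 8, (m.val : ℤ) % 2 = 1 → (m'.val : ℤ) % 2 = 1 → (m'.val : ℤ) = m.val + 4 →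
      ((K + 2 * (m : ℕ) : ℤ) : ZMod 8) = E 0 → ((K + 2 * (m' : ℕ) : ℤ) : ZMod 8) = E 0 →
      E 1 = E 0 + 4 → False := by
    intro m m' o o' hmm res res' h1
    obtain ⟨x, hx⟩ : ((8 : ℕ) : ℤ) ∣ a * (m : ℕ) + e := by
      rw [← ZMod.intCast_zmod_eq_zero_iff_dvd, hres m, res, sub_self, mul_zero]
    push_cast at hx
    rcases Int.emod_two_eq_zero_or_one x with hp | hp
    · exact v4 m' o' res' h1 (x + (2 * q + 1)) (by rw [hmm]; linarith) (by omega)
    · exact v4 m o res h1 x hx hp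
  rcases key _ _ _ r1 r3 hne with ⟨x1, x5, x2⟩ | ⟨x1, x5, x2⟩
  · exact finish 1 5 rfl rfl rfl (by push_cast; exact x1) (by push_cast; exact x5) x2
  · exact finish 3 7 rfl rfl rfl (by push_cast; exact x1) (by push_cast; exact x5) x2

end Vale.Agent.P043.Z4.Puzzle
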